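import Mathlib
import Vale.Agent.P027.R3.H250.FinalX
import Vale.Agent.P027.R3.H124.Dir

namespace Vale.Agent.Results.P027.DensityNearOne

/-- Let `2 ≤ κ`, let `p` be a prime with `p % 3 ^ κ = 1` and `p % 12 = 7`, let `P` be a finite
set, and let `C` be the collection of all sets `R` of rational numbers that contain all
`z / p ^ n` and whose denominators are composed of `p`, the primes of `P` and the primes that are
not congruent to one modulo `3 ^ κ`. Below `R` ranges over `C`, and `R'` over all sets of rational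
numbers that contain the integers.
Part 1: every recursively enumerable set `S` of `k`-tuples of integers (for example the set of all
integers, `k = 1`) is Diophantine over all `R`: there is one polynomial `F` with integer
coefficients such that, for all `R`, `R'`, the set `S` is the set of all tuples `x` of rational
numbers such that `F (x, u, y) = 0` for some `u` in `R` and `y` in `R'`.
Part 2: if one `R` in `C` is Diophantine over the rationals, then every recursively enumerable set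
of tuples of integers is Diophantine over the rationals.
Part 3: there are arbitrarily large primes `p` as above for every `κ`.
Part 4: one `m`-complete recursively enumerable set of natural numbers has the form of part 1 for
all `κ`, `p`, `P`. -/
theorem result :
    (∀ κ p : ℕ, 2 ≤ κ → p.Prime → p % 3 ^ κ = 1 → p % 12 = 7 → ∀ (P : Finset ℕ)
      (C : Set (Set ℚ)), C = {R | (∀ (z : ℤ) (n : ℕ), (z : ℚ) / (p : ℚ) ^ n ∈ R) ∧
        ∀ x ∈ R, ∀ q : ℕ, q.Prime → q ∣ x.den → q = p ∨ q ∈ P ∨ q % 3 ^ κ ≠ 1} →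
      (∀ (k : ℕ) (S : Set (Fin k → ℤ)), REPred (fun a => a ∈ S) →
        ∃ (m r : ℕ) (F : MvPolynomial (Fin k ⊕ Fin m ⊕ Fin r) ℤ), ∀ R ∈ C,
          ∀ R' : Set ℚ, (∀ z : ℤ, (z : ℚ) ∈ R') → ∀ x : Fin k → ℚ,
          ((∃ a ∈ S, ∀ i, x i = a i) ↔
            ∃ (u : Fin m → ℚ) (y : Fin r → ℚ), (∀ i, u i ∈ R) ∧ (∀ j, y j ∈ R') ∧
              MvPolynomial.aeval (Sum.elim x (Sum.elim u y)) F = 0)) ∧
      ∀ R ∈ C, (∃ (l : ℕ) (g : MvPolynomial (Fin 1 ⊕ Fin l) ℤ), ∀ x : ℚ, (x ∈ R ↔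
          ∃ z : Fin l → ℚ, MvPolynomial.aeval (Sum.elim (fun _ => x) z) g = 0)) →
        ∀ (k : ℕ) (S : Set (Fin k → ℤ)), REPred (fun a => a ∈ S) →
          ∃ (r : ℕ) (F : MvPolynomial (Fin k ⊕ Fin r) ℤ), ∀ x : Fin k → ℚ,
            ((∃ a ∈ S, ∀ i, x i = a i) ↔
              ∃ y : Fin r → ℚ, MvPolynomial.aeval (Sum.elim x y) F = 0)) ∧
    (∀ κ n : ℕ, 2 ≤ κ → ∃ p, n < p ∧ p.Prime ∧ p % 3 ^ κ = 1 ∧ p % 12 = 7) ∧
    ∃ A : Set ℕ, REPred (fun a => a ∈ A) ∧ ¬ REPred (fun a => a ∉ A) ∧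
      (∀ B : Set ℕ, REPred (fun n => n ∈ B) →
        ∃ f : ℕ → ℕ, Computable f ∧ ∀ n, (n ∈ B ↔ f n ∈ A)) ∧
      ∀ κ p : ℕ, 2 ≤ κ → p.Prime → p % 3 ^ κ = 1 → p % 12 = 7 → ∀ P : Finset ℕ,
        ∃ (m r : ℕ) (F : MvPolynomial (Fin 1 ⊕ Fin m ⊕ Fin r) ℤ), ∀ R R' : Set ℚ,
          (∀ (z : ℤ) (n : ℕ), (z : ℚ) / (p : ℚ) ^ n ∈ R) →
          (∀ x ∈ R, ∀ q : ℕ, q.Prime → q ∣ x.den → q = p ∨ q ∈ P ∨ q % 3 ^ κ ≠ 1) →
          (∀ z : ℤ, (z : ℚ) ∈ R') → ∀ a : ℕ,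
          (a ∈ A ↔ ∃ (u : Fin m → ℚ) (y : Fin r → ℚ), (∀ i, u i ∈ R) ∧ (∀ j, y j ∈ R') ∧
            MvPolynomial.aeval (Sum.elim (fun _ => (a : ℚ)) (Sum.elim u y)) F = 0) := by
  have hmod : ∀ κ q : ℕ, 2 ≤ κ → (q % 3 ^ κ = 1 ↔ q ≡ 1 [MOD 3 ^ κ]) := by
    intro κ q hκ
    have h1 : 1 < 3 ^ κ := Nat.one_lt_pow (by omega) (by norm_num)
    unfold Nat.ModEq
    rw [Nat.mod_eq_of_lt h1]
  have key : ∀ κ p : ℕ, 2 ≤ κ → p.Prime → p % 3 ^ κ = 1 → p % 12 = 7 → ∀ P : Finset ℕ,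
      Vale.Agent.P027.T3.FormX p (fun R => ∀ x ∈ R, ∀ q : ℕ, q.Prime → q ∣ x.den →
        q = p ∨ q ∈ P ∨ q % 3 ^ κ ≠ 1) := by
    intro κ p hκ hp h3 h12 P k S hS
    obtain ⟨m, r, F, hF⟩ := Vale.Agent.P027.T3.formX_cyc κ p hκ hp ((hmod κ p hκ).1 h3) h12 P
      k S hS
    refine ⟨m, r, F, fun R R' h1 h2 h3 => hF R R' h1 (fun x hx q hq hqd => ?_) h3⟩
    rcases h2 x hx q hq hqd with h | h | h
    · exact Or.inl h
    · exact Or.inr (Or.inl h)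
    · exact Or.inr (Or.inr (fun h' => h ((hmod κ q hκ).2 h')))
  refine ⟨fun κ p hκ hp h3 h12 P C hC => ⟨fun k S hS => ?_, fun R hR h k S hS => ?_⟩,
    fun κ n hκ => ?_, ?_⟩
  · obtain ⟨m, r, F, hF⟩ := key κ p hκ hp h3 h12 P k S hS
    refine ⟨m, r, F, fun R hR R' hR' => ?_⟩
    rw [hC] at hR
    exact hF R R' hR.1 hR.2 hR'
  · rw [hC] at hR
    exact Vale.Agent.P027.T3.formX_cond (key κ p hκ hp h3 h12 P) R hR.1 hR.2 h k S hS
  · obtain ⟨p, h1, h2, h3, h4⟩ := Vale.Agent.P027.T3.exists_primes κ n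
    exact ⟨p, h1, h2, (hmod κ p hκ).2 h3, h4⟩
  · obtain ⟨A, h1, h2, h3, h4⟩ := Vale.Agent.P027.T3.formX_set
    exact ⟨A, h1, h2, h3, fun κ p hκ hp h3 h12 P => h4 p _ (key κ p hκ hp h3 h12 P)⟩

end Vale.Agent.Results.P027.DensityNearOne
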