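import Mathlib
import Vale.Agent.P027.R2.H124.Main2

namespace Vale.Agent.Results.P027.InertDenominators

/-- Let `P` be a finite set. Part 1: for every recursively enumerable set `S` of `k`-tuples of
natural numbers there is one polynomial `F` with integer coefficients such that, for all sets `R`
of rational numbers that contain all `z / 2 ^ n` and whose denominators are composed of the primes
of `P`, the primes `2`, `7` and the primes congruent to `3`, `5` or `6` modulo `7`, and for all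
`a`, `a ∈ S` if and only if `F (a, 2 ^ a, y) = 0` for some `y` in `R`.
Part 2: the same for a predicate `G` on pairs that holds at the points of `x ^ 2 + 7 y ^ 2 = 1`
whose coordinates have powers of two as denominators, and holds only at pairs with denominators
as in part 1; the other unknowns range over any set `R` that contains the integers.
Part 3: if one such predicate `G` is Diophantine over the rationals, then every recursively
enumerable set of tuples of natural numbers is, in the form of part 1, Diophantine over the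
rationals. Part 4: one `m`-complete recursively enumerable set has the form of part 1 for all
`P`. -/
theorem result :
    (∀ P : Finset ℕ,
      (∀ (k : ℕ) (S : Set (Fin k → ℕ)), REPred (fun a => a ∈ S) →
        ∃ (m : ℕ) (F : MvPolynomial (Fin k ⊕ Fin k ⊕ Fin m) ℤ), ∀ R : Set ℚ,
          (∀ (z : ℤ) (n : ℕ), (z : ℚ) / 2 ^ n ∈ R) →
          (∀ x ∈ R, ∀ p : ℕ, p.Prime → p ∣ x.den →
            p ∈ P ∨ p = 2 ∨ p = 7 ∨ p % 7 = 3 ∨ p % 7 = 5 ∨ p % 7 = 6) → ∀ a : Fin k → ℕ,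
          (a ∈ S ↔ ∃ y : Fin m → ℚ, (∀ j, y j ∈ R) ∧ MvPolynomial.aeval
            (Sum.elim (fun i => (a i : ℚ)) (Sum.elim (fun i => (2 : ℚ) ^ a i) y)) F = 0)) ∧
      (∀ (k : ℕ) (S : Set (Fin k → ℕ)), REPred (fun a => a ∈ S) →
        ∃ (m r : ℕ) (F : MvPolynomial (Fin k ⊕ Fin k ⊕ Fin m ⊕ Fin m ⊕ Fin r) ℤ),
          ∀ (G : Set (ℚ × ℚ)) (R : Set ℚ),
          (∀ (x y : ℤ) (n : ℕ), x ^ 2 + 7 * y ^ 2 = 4 ^ n →
            ((x : ℚ) / 2 ^ n, (y : ℚ) / 2 ^ n) ∈ G) →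
          (∀ g ∈ G, ∀ p : ℕ, p.Prime → p ∣ g.1.den ∨ p ∣ g.2.den →
            p ∈ P ∨ p = 2 ∨ p = 7 ∨ p % 7 = 3 ∨ p % 7 = 5 ∨ p % 7 = 6) →
          (∀ z : ℤ, (z : ℚ) ∈ R) → ∀ a : Fin k → ℕ,
          (a ∈ S ↔ ∃ (u v : Fin m → ℚ) (y : Fin r → ℚ), (∀ i, (u i, v i) ∈ G) ∧
            (∀ j, y j ∈ R) ∧ MvPolynomial.aeval (Sum.elim (fun i => (a i : ℚ))
              (Sum.elim (fun i => (2 : ℚ) ^ a i) (Sum.elim u (Sum.elim v y)))) F = 0)) ∧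
      (∀ G : Set (ℚ × ℚ),
        (∀ (x y : ℤ) (n : ℕ), x ^ 2 + 7 * y ^ 2 = 4 ^ n →
          ((x : ℚ) / 2 ^ n, (y : ℚ) / 2 ^ n) ∈ G) →
        (∀ g ∈ G, ∀ p : ℕ, p.Prime → p ∣ g.1.den ∨ p ∣ g.2.den →
          p ∈ P ∨ p = 2 ∨ p = 7 ∨ p % 7 = 3 ∨ p % 7 = 5 ∨ p % 7 = 6) →
        (∃ (l : ℕ) (g : MvPolynomial (Fin 2 ⊕ Fin l) ℤ), ∀ x y : ℚ, ((x, y) ∈ G ↔
          ∃ z : Fin l → ℚ, MvPolynomial.aeval (Sum.elim ![x, y] z) g = 0)) →
        ∀ (k : ℕ) (S : Set (Fin k → ℕ)), REPred (fun a => a ∈ S) →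
          ∃ (r : ℕ) (F : MvPolynomial (Fin k ⊕ Fin k ⊕ Fin r) ℤ), ∀ a : Fin k → ℕ,
            (a ∈ S ↔ ∃ y : Fin r → ℚ, MvPolynomial.aeval
              (Sum.elim (fun i => (a i : ℚ)) (Sum.elim (fun i => (2 : ℚ) ^ a i) y)) F = 0))) ∧
    ∃ A : Set ℕ, REPred (fun a => a ∈ A) ∧ ¬ REPred (fun a => a ∉ A) ∧
      (∀ B : Set ℕ, REPred (fun n => n ∈ B) →
        ∃ f : ℕ → ℕ, Computable f ∧ ∀ n, (n ∈ B ↔ f n ∈ A)) ∧
      ∀ P : Finset ℕ, ∃ (m : ℕ) (F : MvPolynomial (Fin 1 ⊕ Fin 1 ⊕ Fin m) ℤ), ∀ R : Set ℚ,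
        (∀ (z : ℤ) (n : ℕ), (z : ℚ) / 2 ^ n ∈ R) →
        (∀ x ∈ R, ∀ p : ℕ, p.Prime → p ∣ x.den →
          p ∈ P ∨ p = 2 ∨ p = 7 ∨ p % 7 = 3 ∨ p % 7 = 5 ∨ p % 7 = 6) → ∀ a : ℕ,
        (a ∈ A ↔ ∃ y : Fin m → ℚ, (∀ j, y j ∈ R) ∧ MvPolynomial.aeval
          (Sum.elim (fun _ => (a : ℚ)) (Sum.elim (fun _ => (2 : ℚ) ^ a) y)) F = 0) :=
  ⟨fun P =>
    ⟨fun k S hS => Vale.Agent.P027.T2.r_rings P k S hS,
      fun k S hS => by
        obtain ⟨m, r, F, hF⟩ := Vale.Agent.P027.T2.r_pred P k S hS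
        exact ⟨m, r, F, fun G R h1 h2 h3 a => hF G R ⟨h1, h2⟩ h3 a⟩,
      fun G h1 h2 h3 k S hS => Vale.Agent.P027.T2.r_cond P G ⟨h1, h2⟩ h3 k S hS⟩,
    Vale.Agent.P027.T2.r_set⟩

end Vale.Agent.Results.P027.InertDenominators
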