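import Mathlib
import Vale.Agent.P027.R4.H788.Bridge
import Vale.Agent.P027.R4.H788.Inj
import Vale.Agent.P027.R4.H788.ModFour
import Vale.Agent.P027.R4.H788.SparseAll
import Vale.Agent.P027.R4.H712.Triv
import Vale.Agent.P027.R4.H849.SP
import Vale.Agent.P027.R4.H297.CompT
import Vale.Agent.P027.R4.H815.Cor
import Vale.Agent.P027.R4.H330.Thin
import Vale.Agent.P027.R4.H330.ThinL
import Vale.Agent.P027.R5.E5.Cond
import Vale.Agent.P027.R5.E5.Q8

namespace Vale.Agent.Results.P027.NaturalDensityOne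

open Vale.Agent.P345 Vale.Agent.P027 Vale.Agent.P027.D1 Vale.Agent.P027.HT in
/-- Let `E : y ^ 2 = x ^ 3 - 2 x`, `P = (-1, 1)`. There are rational `x n`, `y n` with
`n P = (x n, y n)` for all `n ≠ 0`, and `x n` determines `n` up to sign. For a prime `q` let
`o q m` say that `m` is the least positive integer such that `q` divides the denominator of `x m`
(the order of `P` modulo `q`).
Let `L B C` be the collection of the sets `R` of rational numbers that contain all integers and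
all `x (C 2 ^ k)`, `k ≥ 1`, and such that for every power `r ^ e > B` of a prime `r` not dividing
`2 C` there is a prime `q` that divides no denominator of an element of `R` and whose order is
`c r ^ e` with `c` dividing `2 C`.
Let `K B C` be the collection of the sets `R` of rational numbers that contain all integers and
all `x (C 2 ^ k)`, `k ≥ 1`, and such that for all `n ≥ 1` prime to `2 C` and all prime powers
`r ^ e > B` that divide `n` exactly there is a prime `q` whose order is a multiple of `r ^ e` and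
divides `2 C n`, such that either `q` divides no denominator of an element of `R`, or `C` is odd,
`q` is five modulo eight and the `q`-adic valuation of `x (C n)` is two modulo four.
In all parts `1 ≤ C`.
Part 1: for every recursively enumerable set `S` of `k`-tuples of nonzero integers there is one
polynomial `F` such that for all `R` in `K B C` and all sets `R'` of rational numbers that contain
the integers the zeros `(w, u, v)` of `F` with rational `w`, with `u` in `R` and `v` in `R'`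
project onto the set of the tuples `(x (a 1), ..., x (a k))`, `a` in `S`; and the same for
the tuples of points `(x (a i), y (a i))`.
Part 2: if one `R` in `K B C` is Diophantine over the rationals, then these sets are Diophantine
over the rationals.
Part 3: there is `B₀` such that for all `B`, `C` and all sets `S` of primes that contain the primes
whose order divides some `C 2 ^ k` and none of the primes whose order is a power `r ^ e > B` of a
prime `r` not dividing `2 C`, the ring `Z[1/S]` is in `L (max B B₀) C`; every odd prime power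
greater than `B₀` is the order of a prime; primes of odd order are one modulo four.
Part 4: there are `N₀` and `c` such that for all `N ≥ N₀` there is a computable set `T` of primes
with at most `13 √n` elements and, for `n ≥ 2`, at most `c √n / log n` elements up to `n`, so of
relative density zero, all of them greater than `N / 2 - 1`, such that for all `C` all sets `R` that contain the integers and all `x (C 2 ^ k)` and
whose denominators are prime to `T` are in `L N C`, and, if `C ≤ N`, the ring of all rational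
numbers with denominators prime to `T` is in `L N C`.
Part 5: there are an `m`-complete set `A` and a computable function `f` such that for all `B`, `C`
the set `A` is reduced by `f` to the solvability of one polynomial over all `R` in `K B C`,
and to the solvability of one polynomial over the rationals if one of these `R` is
Diophantine over the rationals.
Part 6: `L B C` is contained in `K B C`; for odd `C`, `n ≥ 1` prime to `2 C` and all powers `r ^ e`,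
`e ≥ 1`, of primes `r` that are three modulo eight, that divide `n` exactly, the second case in the
definition of `K B C` occurs; so for odd `C` the collection `K B C` also contains the sets `R` with
the property in the definition of `L B C` for all `r` that are not three modulo eight.
Part 7: for odd `C` the set of all rational numbers is in `K B C` if and only if for all `n ≥ 1`
prime to `2 C` and all prime powers `r ^ e > B` that divide `n` exactly there is a prime `q`, five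
modulo eight, whose order is a multiple of `r ^ e`, such that the `q`-adic valuation of `x (C n)` is
two modulo four.
Part 8, over the rationals: for `n ≠ 0` the number `x (2 n)` is the square of a number of the form
`(a ^ 2 - 2 b ^ 2) (c ^ 2 + 2 d ^ 2)` if and only if its valuations at all primes five modulo eight
are divisible by four; this is the case for all `x (2 ^ k)`, `k ≥ 1`, and not the case if a prime
that is three modulo eight divides `n`. For odd `n` and `m ≠ 0` we have `x n = - r ^ 2` with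
positive rational `r`; the equation `(r / x (2 m)) ^ 2 - 2 = 2 u ^ 2 + r (v ^ 2 - 2 w ^ 2)` has a
rational solution if `n` divides `m`; if it has one, then all primes five modulo eight at which the
valuation of `x n` is two modulo four divide the denominator of `x (2 m)`, and all powers of primes
three modulo eight that divide `n` divide `m`; so for `n` composed of such primes the equation is
solvable if and only if `n` divides `m`. -/
theorem result (E : WeierstrassCurve.Affine ℚ) (hE : E = ⟨0, 0, 0, -2, 0⟩) (P : E.Point)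
    (hP : ∃ h, P = WeierstrassCurve.Affine.Point.some (-1) 1 h) :
    ∃ x y : ℤ → ℚ,
    (∀ n : ℤ, n ≠ 0 → ∃ h, n • P = WeierstrassCurve.Affine.Point.some (x n) (y n) h) ∧
    (∀ m n : ℤ, m ≠ 0 → n ≠ 0 → x m = x n → m = n ∨ m = -n) ∧
    ∀ o : ℕ → ℕ → Prop, (∀ q m : ℕ, o q m ↔ 0 < m ∧ q ∣ (x m).den ∧
      ∀ j : ℕ, 0 < j → j < m → ¬ q ∣ (x j).den) →
    ∀ L : ℕ → ℕ → Set (Set ℚ), (∀ B C : ℕ, L B C = {R | (∀ z : ℤ, (z : ℚ) ∈ R) ∧
      (∀ k : ℕ, 0 < k → x (C * 2 ^ k) ∈ R) ∧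
      ∀ r e : ℕ, r.Prime → ¬ r ∣ 2 * C → 0 < e → B < r ^ e →
        ∃ q c : ℕ, q.Prime ∧ c ∣ 2 * C ∧ o q (c * r ^ e) ∧ ∀ t ∈ R, ¬ q ∣ t.den}) →
    ∀ K : ℕ → ℕ → Set (Set ℚ), (∀ B C : ℕ, K B C = {R | (∀ z : ℤ, (z : ℚ) ∈ R) ∧
      (∀ k : ℕ, 0 < k → x (C * 2 ^ k) ∈ R) ∧
      ∀ n r e : ℕ, 0 < n → Nat.Coprime n (2 * C) → r.Prime → 0 < e → r ^ e ∣ n →
        ¬ r ^ (e + 1) ∣ n → B < r ^ e → ∃ q m : ℕ, q.Prime ∧ o q m ∧ r ^ e ∣ m ∧ m ∣ 2 * C * n ∧
          ((∀ t ∈ R, ¬ q ∣ t.den) ∨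
            (Odd C ∧ q % 8 = 5 ∧ padicValRat q (x (C * n)) % 4 = 2))}) →
    -- Part 1
    (∀ B C k : ℕ, 0 < C → ∀ S : Set (Fin k → ℤ), REPred (fun a => a ∈ S) →
      (∀ a ∈ S, ∀ i, a i ≠ 0) →
      (∃ (m r : ℕ) (F : MvPolynomial (Fin k ⊕ Fin m ⊕ Fin r) ℤ), ∀ R ∈ K B C,
        ∀ R' : Set ℚ, (∀ z : ℤ, (z : ℚ) ∈ R') → ∀ w : Fin k → ℚ,
        ((∃ a ∈ S, ∀ i, w i = x (a i)) ↔
          ∃ (u : Fin m → ℚ) (v : Fin r → ℚ), (∀ i, u i ∈ R) ∧ (∀ j, v j ∈ R') ∧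
            MvPolynomial.aeval (Sum.elim w (Sum.elim u v)) F = 0)) ∧
      (∃ (m r : ℕ) (F : MvPolynomial ((Fin k × Fin 2) ⊕ Fin m ⊕ Fin r) ℤ), ∀ R ∈ K B C,
        ∀ R' : Set ℚ, (∀ z : ℤ, (z : ℚ) ∈ R') → ∀ w : Fin k × Fin 2 → ℚ,
        ((∃ a ∈ S, ∀ i, w (i, 0) = x (a i) ∧ w (i, 1) = y (a i)) ↔
          ∃ (u : Fin m → ℚ) (v : Fin r → ℚ), (∀ i, u i ∈ R) ∧ (∀ j, v j ∈ R') ∧
            MvPolynomial.aeval (Sum.elim w (Sum.elim u v)) F = 0))) ∧
    -- Part 2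
    (∀ B C : ℕ, 0 < C → ∀ R ∈ K B C, (∃ (l : ℕ) (g : MvPolynomial (Fin 1 ⊕ Fin l) ℤ),
        ∀ t : ℚ, (t ∈ R ↔ ∃ z : Fin l → ℚ, MvPolynomial.aeval (Sum.elim (fun _ => t) z) g = 0)) →
      ∀ (k : ℕ) (S : Set (Fin k → ℤ)), REPred (fun a => a ∈ S) → (∀ a ∈ S, ∀ i, a i ≠ 0) →
        (∃ (r : ℕ) (F : MvPolynomial (Fin k ⊕ Fin r) ℤ), ∀ w : Fin k → ℚ,
          ((∃ a ∈ S, ∀ i, w i = x (a i)) ↔
            ∃ v : Fin r → ℚ, MvPolynomial.aeval (Sum.elim w v) F = 0)) ∧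
        (∃ (r : ℕ) (F : MvPolynomial ((Fin k × Fin 2) ⊕ Fin r) ℤ), ∀ w : Fin k × Fin 2 → ℚ,
          ((∃ a ∈ S, ∀ i, w (i, 0) = x (a i) ∧ w (i, 1) = y (a i)) ↔
            ∃ v : Fin r → ℚ, MvPolynomial.aeval (Sum.elim w v) F = 0))) ∧
    -- Part 3
    (∃ B₀ : ℕ, (∀ (B C : ℕ) (S : Set ℕ), 0 < C →
        (∀ q m k : ℕ, q.Prime → o q m → m ∣ C * 2 ^ k → q ∈ S) →
        (∀ q r e : ℕ, q.Prime → r.Prime → ¬ r ∣ 2 * C → 0 < e → B < r ^ e → o q (r ^ e) →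
          q ∉ S) →
        {t : ℚ | ∀ q : ℕ, q.Prime → q ∣ t.den → q ∈ S} ∈ L (max B B₀) C) ∧
      (∀ r e : ℕ, r.Prime → r ≠ 2 → 0 < e → B₀ < r ^ e → ∃ q : ℕ, q.Prime ∧ o q (r ^ e)) ∧
      ∀ q m : ℕ, q.Prime → Odd m → o q m → q % 4 = 1) ∧
    -- Part 4
    (∃ (N₀ : ℕ) (c : ℝ), ∀ N : ℕ, N₀ ≤ N → ∃ T : Set ℕ, (∀ q ∈ T, q.Prime ∧ N < 2 * (q + 1)) ∧
      ComputablePred (fun q => q ∈ T) ∧ (∀ n : ℕ, (T ∩ Set.Iic n).ncard ≤ 13 * Nat.sqrt n) ∧
      (∀ n : ℕ, 2 ≤ n → ((T ∩ Set.Iic n).ncard : ℝ) ≤ c * (Real.sqrt n / Real.log n)) ∧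
      Filter.Tendsto (fun n : ℕ => ((T ∩ Set.Iic n).ncard : ℝ) / (Nat.primeCounting n : ℝ))
        Filter.atTop (nhds 0) ∧
      ∀ C : ℕ, 0 < C →
        (∀ R : Set ℚ, (∀ z : ℤ, (z : ℚ) ∈ R) → (∀ k : ℕ, 0 < k → x (C * 2 ^ k) ∈ R) →
          (∀ q ∈ T, ∀ t ∈ R, ¬ q ∣ t.den) → R ∈ L N C) ∧
        (C ≤ N → {t : ℚ | ∀ q ∈ T, ¬ q ∣ t.den} ∈ L N C)) ∧
    -- Part 5
    (∃ (A : Set ℕ) (f : ℕ → Fin 3 → ℤ), REPred (fun a => a ∈ A) ∧ ¬ REPred (fun a => a ∉ A) ∧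
      (∀ D : Set ℕ, REPred (fun n => n ∈ D) →
        ∃ g : ℕ → ℕ, Computable g ∧ ∀ n, (n ∈ D ↔ g n ∈ A)) ∧ Computable f ∧
      ∀ B C : ℕ, 0 < C →
        (∃ (m r : ℕ) (G : MvPolynomial (Fin 3 ⊕ Fin m ⊕ Fin r) ℤ), ∀ R ∈ K B C,
          ∀ R' : Set ℚ, (∀ z : ℤ, (z : ℚ) ∈ R') → ∀ a : ℕ,
          (a ∈ A ↔ ∃ (u : Fin m → ℚ) (v : Fin r → ℚ), (∀ i, u i ∈ R) ∧ (∀ j, v j ∈ R') ∧
            MvPolynomial.aeval (Sum.elim (fun i => (f a i : ℚ)) (Sum.elim u v)) G = 0)) ∧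
        ∀ R ∈ K B C, (∃ (l : ℕ) (g : MvPolynomial (Fin 1 ⊕ Fin l) ℤ),
          ∀ t : ℚ, (t ∈ R ↔ ∃ z : Fin l → ℚ,
            MvPolynomial.aeval (Sum.elim (fun _ => t) z) g = 0)) →
          ∃ (r : ℕ) (G : MvPolynomial (Fin 3 ⊕ Fin r) ℤ), ∀ a : ℕ,
            (a ∈ A ↔ ∃ v : Fin r → ℚ,
              MvPolynomial.aeval (Sum.elim (fun i => (f a i : ℚ)) v) G = 0)) ∧
    -- Part 6
    (∀ B C : ℕ, 0 < C → L B C ⊆ K B C) ∧
    (∀ C n r e : ℕ, Odd C → 0 < n → Nat.Coprime n (2 * C) → r.Prime → r % 8 = 3 → 0 < e →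
      r ^ e ∣ n → ¬ r ^ (e + 1) ∣ n → ∃ q m : ℕ, q.Prime ∧ q % 8 = 5 ∧ o q m ∧ r ^ e ∣ m ∧
        m ∣ 2 * C * n ∧ padicValRat q (x (C * n)) % 4 = 2) ∧
    (∀ B C : ℕ, Odd C → ∀ R : Set ℚ, (∀ z : ℤ, (z : ℚ) ∈ R) →
      (∀ k : ℕ, 0 < k → x (C * 2 ^ k) ∈ R) →
      (∀ r e : ℕ, r.Prime → ¬ r ∣ 2 * C → r % 8 ≠ 3 → 0 < e → B < r ^ e →
        ∃ q c : ℕ, q.Prime ∧ c ∣ 2 * C ∧ o q (c * r ^ e) ∧ ∀ t ∈ R, ¬ q ∣ t.den) →
      R ∈ K B C) ∧
    -- Part 7
    (∀ B C : ℕ, Odd C → (Set.univ ∈ K B C ↔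
      ∀ n r e : ℕ, 0 < n → Nat.Coprime n (2 * C) → r.Prime → 0 < e → r ^ e ∣ n →
        ¬ r ^ (e + 1) ∣ n → B < r ^ e → ∃ q m : ℕ, q.Prime ∧ q % 8 = 5 ∧ o q m ∧ r ^ e ∣ m ∧
          padicValRat q (x (C * n)) % 4 = 2)) ∧
    -- Part 8
    (∀ n : ℤ, n ≠ 0 →
      ((∃ a b c d : ℚ, x (2 * n) = ((a ^ 2 - 2 * b ^ 2) * (c ^ 2 + 2 * d ^ 2)) ^ 2) ↔
        ∀ q : ℕ, q.Prime → q % 8 = 5 → padicValRat q (x (2 * n)) % 4 = 0) ∧
      ∀ r : ℕ, r.Prime → r % 8 = 3 → (r : ℤ) ∣ n →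
        ¬ ∃ a b c d : ℚ, x (2 * n) = ((a ^ 2 - 2 * b ^ 2) * (c ^ 2 + 2 * d ^ 2)) ^ 2) ∧
    (∀ k : ℕ, ∃ a b c d : ℚ, x (2 * 2 ^ k) = ((a ^ 2 - 2 * b ^ 2) * (c ^ 2 + 2 * d ^ 2)) ^ 2) ∧
    ∀ n m : ℤ, Odd n → m ≠ 0 → ∃ r : ℚ, 0 < r ∧ x n = -r ^ 2 ∧
      (n ∣ m → ∃ u v w : ℚ, (r / x (2 * m)) ^ 2 - 2 = 2 * u ^ 2 + r * (v ^ 2 - 2 * w ^ 2)) ∧
      ((∃ u v w : ℚ, (r / x (2 * m)) ^ 2 - 2 = 2 * u ^ 2 + r * (v ^ 2 - 2 * w ^ 2)) →
        (∀ q : ℕ, q.Prime → q % 8 = 5 → padicValRat q (x n) % 4 = 2 → q ∣ (x (2 * m)).den) ∧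
        ∀ p e : ℕ, p.Prime → p % 8 = 3 → (p : ℤ) ^ e ∣ n → (p : ℤ) ^ e ∣ m) := by
  obtain rfl : E = Vale.Agent.P345.EC := hE
  obtain rfl : P = Vale.Agent.P345.P0 := by
    obtain ⟨h, hP⟩ := hP
    exact hP
  obtain ⟨y, hy⟩ := exists_y
  have hF : E5.RowF := E5.H712.rowF E5.rowG (E5.rowC1_of evPt_iff) rowC2
  refine ⟨fun n => xc (n • Vale.Agent.P345.P0), y, fun n hn => ?_,
    fun m n hm hn h => xc_inj hm hn h, fun o ho L hL K hK => ?_⟩
  · obtain ⟨h1, h2⟩ := hy n hn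
    exact ⟨_, h2⟩
  have ho' : ∀ {q : ℕ}, q.Prime → ∀ m : ℕ, (o q m ↔ Ord q m) := by
    intro q hq m
    rw [ho, ord_iff_least hq]
  have hL' : ∀ {B C : ℕ}, 0 < C → ∀ R : Set ℚ, (R ∈ L B C ↔ Cls B C R) := by
    intro B C hC R
    rw [hL]
    constructor
    · rintro ⟨h1, h2, h3⟩
      refine ⟨hC, h1, fun k hk => ?_, fun r e hr hrC he hB => ?_⟩
      · exact h2 k hk
      · obtain ⟨q, c, hq, hc, hqc, hR⟩ := h3 r e hr hrC he hB
        exact ⟨q, hq, ⟨c, hc, (ho' hq _).1 hqc⟩, hR⟩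
    · rintro ⟨-, h1, h2, h3⟩
      refine ⟨h1, fun k hk => h2 k hk, fun r e hr hrC he hB => ?_⟩
      obtain ⟨q, hq, ⟨c, hc, hqc⟩, hR⟩ := h3 r e hr hrC he hB
      exact ⟨q, c, hq, hc, (ho' hq _).2 hqc, hR⟩
  have hK' : ∀ {B C : ℕ}, 0 < C → ∀ R : Set ℚ, (R ∈ K B C ↔ E5.Cls B C R) := by
    intro B C hC R
    rw [hK]
    constructor
    · rintro ⟨h1, h2, h3⟩
      refine ⟨hC, h1, fun k hk => h2 k hk, fun n r e hn hco hr he h4 h5 hB => ?_⟩
      obtain ⟨q, m, hq, hqm, hrm, hm, h⟩ := h3 n r e hn hco hr he h4 h5 hB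
      exact ⟨q, m, hq, (ho' hq _).1 hqm, hrm, hm, h⟩
    · rintro ⟨-, h1, h2, h3⟩
      refine ⟨h1, fun k hk => h2 k hk, fun n r e hn hco hr he h4 h5 hB => ?_⟩
      obtain ⟨q, m, hq, hqm, hrm, hm, h⟩ := h3 n r e hn hco hr he h4 h5 hB
      exact ⟨q, m, hq, (ho' hq _).2 hqm, hrm, hm, h⟩
  have hpt : ∀ (n : ℤ), n ≠ 0 → ∀ z w : ℚ,
      ((∃ e : w ^ 2 = z ^ 3 - 2 * z, pt z w e = n • Vale.Agent.P345.P0) ↔
        z = xc (n • Vale.Agent.P345.P0) ∧ w = y n) := by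
    intro n hn z w
    obtain ⟨h1, h2⟩ := hy n hn
    constructor
    · rintro ⟨e, h⟩
      rw [h2] at h
      unfold pt at h
      rw [WeierstrassCurve.Affine.Point.some.injEq] at h
      exact h
    · rintro ⟨rfl, rfl⟩
      exact ⟨h1, h2.symm⟩
  have hcode : ∀ {k : ℕ} (S : Set (Fin k → ℤ)) (h0 : ∀ a ∈ S, ∀ i, a i ≠ 0)
      (w : Fin k × Fin 2 → ℚ),
      ((∃ a ∈ S, ∀ i, w (i, 0) = xc ((a i) • Vale.Agent.P345.P0) ∧
        w (i, 1) = y (a i)) ↔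
      (∃ a ∈ S, ∀ i, ∃ e : w (i, 1) ^ 2 = w (i, 0) ^ 3 - 2 * w (i, 0),
        Vale.Agent.P345.pt (w (i, 0)) (w (i, 1)) e = (a i) • Vale.Agent.P345.P0)) := by
    intro k S h0 w
    refine exists_congr (fun a => and_congr_right (fun haS => forall_congr' (fun i => ?_)))
    exact (hpt (a i) (h0 a haS i) (w (i, 0)) (w (i, 1))).symm
  refine ⟨fun B C k hC S hS h0 => ⟨?_, ?_⟩, fun B C hC R hR hdio k S hS h0 => ⟨?_, ?_⟩, ?_, ?_, ?_, ?_, ?_, ?_, ?_, ?_, ?_, ?_⟩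
  · obtain ⟨m, r, F, h⟩ := E5.rowAllX hF rowC2 B C k S hS h0
    exact ⟨m, r, F, fun R hR R' hR' w => h R R' ((hK' hC R).1 hR) hR' w⟩
  · obtain ⟨m, r, F, h⟩ := E5.rowAll hF rowC2 B C k S hS h0
    refine ⟨m, r, F, fun R hR R' hR' w => ?_⟩
    rw [← h R R' ((hK' hC R).1 hR) hR' w]
    exact hcode S h0 w
  · obtain ⟨m, r, F, h⟩ := E5.rowAllX hF rowC2 B C k S hS h0
    obtain ⟨r', F', h'⟩ := elim_dio F hdio
    exact ⟨r', F', fun w => by
      rw [h' w, ← h R Set.univ ((hK' hC R).1 hR) (fun _ => Set.mem_univ _) w]⟩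
  · obtain ⟨m, r, F, h⟩ := E5.rowAll hF rowC2 B C k S hS h0
    obtain ⟨r', F', h'⟩ := elim_dio F hdio
    refine ⟨r', F', fun w => ?_⟩
    rw [h' w, ← h R Set.univ ((hK' hC R).1 hR) (fun _ => Set.mem_univ _) w]
    exact hcode S h0 w
  · obtain ⟨B₀, h1⟩ := R4.H815.cls_loc
    obtain ⟨B₁, h2⟩ := R4.H815.rowH
    refine ⟨max B₀ B₁, fun B C S hC hS1 hS2 => ?_, fun r e hr hr2 he hB => ?_,
      fun q m hq hm hqm => ?_⟩
    · rw [hL' hC]
      have h3 := h1 B C S hC (fun q m k hq hqm hm => hS1 q m k hq ((ho' hq _).2 hqm) hm)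
        (fun q r e hq hr hrC he hB hqr => hS2 q r e hq hr hrC he hB ((ho' hq _).2 hqr))
      refine ⟨h3.pos, h3.int, h3.two, fun r e hr hrC he hB => h3.live r e hr hrC he ?_⟩
      omega
    · obtain ⟨q, hq, hqr⟩ := h2 r e hr hr2 he (by omega)
      exact ⟨q, hq, (ho' hq _).2 hqr⟩
    · exact rowM q m hq hm ((ho' hq _).1 hqm)
  · obtain ⟨N0, h2, hN0⟩ := R4.H330.thin_TS R4.H815.rowH R4.H849.rowSP H712.triv
    obtain ⟨N1, c, -, hc⟩ := R4.H330.thin_TS_log R4.H815.rowH R4.H849.rowSP H712.triv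
    refine ⟨max N0 N1, c, fun N hN' => ?_⟩
    have hN1 : N0 ≤ N := le_trans (le_max_left _ _) hN'
    have hN2 : N1 ≤ N := le_trans (le_max_right _ _) hN'
    have hN : ∀ r e : ℕ, r.Prime → r ≠ 2 → 1 ≤ e → N < r ^ e →
        ∃ q : ℕ, q.Prime ∧ Ord q (r ^ e) := fun r e hr hr2 he hB => h2 r e hr hr2 he (by omega)
    refine ⟨TS 1 N, fun q hq => ?_, R4.H297.comp_TS hN H712.triv,
      (hN0 N hN1 1).1, fun n hn => hc N hN2 1 n hn, (hN0 N hN1 1).2, fun C hC => ⟨fun R hZ hx hR => ?_, fun hCN => ?_⟩⟩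
    · obtain ⟨r, e, -, -, -, h3, -, h4, h5, -⟩ := TS_spec hN hq
      exact ⟨h4, lt_of_lt_of_le h3 (H712.triv q _ h4 h5)⟩
    · rw [hL' hC]
      exact cls_TS1 hN hC hZ (fun k hk => hx k hk) hR
    · rw [hL' hC]
      exact loc_TS1 hN hC hCN
  · obtain ⟨A, f, h1, h2, h3, h4, h5, h6⟩ := E5.rowX_undec hF
    refine ⟨A, f, h1, h2, h3, h4, fun B C hC => ⟨?_, fun R hR hdio => ?_⟩⟩
    · obtain ⟨m, r, G, h⟩ := h5 B C
      exact ⟨m, r, G, fun R hR R' hR' a => h R R' ((hK' hC R).1 hR) hR' a⟩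
    · exact h6 B C R ((hK' hC R).1 hR) hdio
  · intro B C hC R hR
    rw [hL' hC] at hR
    rw [hK' hC]
    exact E5.Cls.of_old hR
  · intro C n r e hC hn hco hr h3 he h1 h2
    obtain ⟨q, m, hq, ho, hrm, hm, -, h5, hv⟩ := E5.three_mod_eight hC hn hco hr h3 he h1 h2
    exact ⟨q, m, hq, h5, (ho' hq _).2 ho, hrm, hm, hv⟩
  · intro B C hC R hZ hx hl
    rw [hK' hC.pos]
    refine E5.cls_three hC hZ (fun k hk => hx k hk) (fun r e hr h3 hrC he hB => ?_)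
    obtain ⟨q, c, hq, hc, hqc, hR⟩ := hl r e hr hrC h3 he hB
    exact ⟨q, hq, ⟨c, hc, (ho' hq _).1 hqc⟩, hR⟩
  · intro B C hC
    rw [hK' hC.pos]
    constructor
    · intro h n r e hn hco hr he h1 h2 hB
      obtain ⟨q, m, hq, hqm, hrm, hm, h3⟩ := h.live n r e hn hco hr he h1 h2 hB
      rcases h3 with h3 | ⟨-, h5, hv⟩
      · exfalso
        refine h3 ((q : ℚ)⁻¹) (Set.mem_univ _) ?_
        rw [Rat.inv_natCast_den_of_pos hq.pos]
      · exact ⟨q, m, hq, h5, (ho' hq _).2 hqm, hrm, hv⟩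
    · intro h
      refine ⟨hC.pos, fun _ => Set.mem_univ _, fun _ _ => Set.mem_univ _,
        fun n r e hn hco hr he h1 h2 hB => ?_⟩
      obtain ⟨q, m, hq, h5, hqm, hrm, hv⟩ := h n r e hn hco hr he h1 h2 hB
      have hqm' := (ho' hq _).1 hqm
      exact ⟨q, m, hq, hqm', hrm, E5.dvd_of_val hq h5 hC.pos hn hqm' hv, Or.inr ⟨hC, h5, hv⟩⟩
  · intro n hn
    refine ⟨E5.q8a hn, fun r hr hr3 hrn h => ?_⟩
    obtain ⟨q, hq, h5, hv⟩ := E5.q8c hn hr hr3 hrn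
    have h1 := (E5.q8a hn).1 h q hq h5
    rw [h1] at hv
    exact absurd hv (by norm_num)
  · intro k
    exact (E5.q8a (pow_ne_zero k two_ne_zero)).2 fun q hq h5 => E5.q8b k hq h5
  · intro n m hn hm
    exact E5.q8d hn hm

end Vale.Agent.Results.P027.NaturalDensityOne
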