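import Mathlib
import Vale.Agent.P027.R2.H124.MainT2
import Vale.Agent.P027.R3.H192.Main

namespace Vale.Agent.Results.P027.PowersOfTwo

open Vale.Agent.P027.H192

/-- Let `P` be a finite set and `e ≥ 1`. Part 1: for every recursively enumerable set `S` of
`k`-tuples of integers there is one polynomial `F` with integer coefficients such that, for all
sets `G` of rational numbers that contain all `2 ^ (e n)`, `n ≥ 0`, and consist of nonzero numbers
without primes outside `P`, and for all sets `R` of rational numbers that contain the integers,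
`a ∈ S` if and only if `F (a, u, y) = 0` for some `u` in `G` and `y` in `R`.
Part 2: the same for sets of tuples of natural numbers `b`, given by the numbers `2 ^ b i`.
Part 3: if one such set `G` is Diophantine over the rationals, then every recursively enumerable
set of tuples of integers is, on integral arguments, Diophantine over the rationals.
Part 4: one `m`-complete recursively enumerable set has the form of part 1 for all `P`, `e`.
Part 5: let `t` be a positive sequence with `t (n + 1) * Q n = P n * t n`, where `P`, `Q` are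
polynomials over the integers of the same degree, positive on the natural numbers, whose quotient
is not constant and has a limit greater than one, or let `t n = n !`, and let `B` be a rational
number. For every recursively enumerable set `S` of `k`-tuples of integers there is one polynomial
`F` with integer coefficients such that, for all sets `G` of rational numbers whose elements
above `B` are the values of `t` above `B`, and for all sets `R` of rational numbers that contain
the integers, a `k`-tuple `x` of rational numbers is in `S` if and only if `F (x, u, y) = 0` for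
some `u` in `G` and `y` in `R`; if one such `G` is Diophantine over the rationals, so is `S`.
Part 6: the central binomial coefficients are such a sequence; the set of all `n !` is Diophantine
over the rationals if and only if the set of integers is, and the same for the set of all
central binomial coefficients. -/
theorem result :
    (∀ (P : Finset ℕ) (e : ℕ), 1 ≤ e →
      (∀ (k : ℕ) (S : Set (Fin k → ℤ)), REPred (fun a => a ∈ S) →
        ∃ (m r : ℕ) (F : MvPolynomial (Fin k ⊕ Fin m ⊕ Fin r) ℤ), ∀ G R : Set ℚ,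
          (∀ n : ℕ, (2 : ℚ) ^ (e * n) ∈ G) →
          (∀ x ∈ G, x ≠ 0 ∧ ∀ p : ℕ, p.Prime → p ∉ P → padicValRat p x = 0) →
          (∀ z : ℤ, (z : ℚ) ∈ R) → ∀ a : Fin k → ℤ,
            (a ∈ S ↔ ∃ (u : Fin m → ℚ) (y : Fin r → ℚ), (∀ i, u i ∈ G) ∧ (∀ j, y j ∈ R) ∧
              MvPolynomial.aeval (Sum.elim (fun i => (a i : ℚ)) (Sum.elim u y)) F = 0)) ∧
      (∀ (k : ℕ) (S : Set (Fin k → ℕ)), REPred (fun b => b ∈ S) →
        ∃ (m r : ℕ) (F : MvPolynomial (Fin k ⊕ Fin m ⊕ Fin r) ℤ), ∀ G R : Set ℚ,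
          (∀ n : ℕ, (2 : ℚ) ^ (e * n) ∈ G) →
          (∀ x ∈ G, x ≠ 0 ∧ ∀ p : ℕ, p.Prime → p ∉ P → padicValRat p x = 0) →
          (∀ z : ℤ, (z : ℚ) ∈ R) → ∀ b : Fin k → ℕ,
            (b ∈ S ↔ ∃ (u : Fin m → ℚ) (y : Fin r → ℚ), (∀ i, u i ∈ G) ∧ (∀ j, y j ∈ R) ∧
              MvPolynomial.aeval (Sum.elim (fun i => (2 : ℚ) ^ b i) (Sum.elim u y)) F = 0)) ∧
      (∀ G : Set ℚ, (∀ n : ℕ, (2 : ℚ) ^ (e * n) ∈ G) →
        (∀ x ∈ G, x ≠ 0 ∧ ∀ p : ℕ, p.Prime → p ∉ P → padicValRat p x = 0) →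
        (∃ (l : ℕ) (g : MvPolynomial (Fin 1 ⊕ Fin l) ℤ), ∀ x : ℚ,
          (x ∈ G ↔ ∃ z : Fin l → ℚ, MvPolynomial.aeval (Sum.elim (fun _ => x) z) g = 0)) →
        ∀ (k : ℕ) (S : Set (Fin k → ℤ)), REPred (fun a => a ∈ S) →
          ∃ (r : ℕ) (F : MvPolynomial (Fin k ⊕ Fin r) ℤ), ∀ a : Fin k → ℤ,
            (a ∈ S ↔ ∃ y : Fin r → ℚ,
              MvPolynomial.aeval (Sum.elim (fun i => (a i : ℚ)) y) F = 0))) ∧
    (∃ A : Set ℕ, REPred (fun a => a ∈ A) ∧ ¬ REPred (fun a => a ∉ A) ∧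
      (∀ B : Set ℕ, REPred (fun n => n ∈ B) →
        ∃ f : ℕ → ℕ, Computable f ∧ ∀ n, (n ∈ B ↔ f n ∈ A)) ∧
      ∀ (P : Finset ℕ) (e : ℕ), 1 ≤ e →
        ∃ (m r : ℕ) (F : MvPolynomial (Fin 1 ⊕ Fin m ⊕ Fin r) ℤ), ∀ G R : Set ℚ,
          (∀ n : ℕ, (2 : ℚ) ^ (e * n) ∈ G) →
          (∀ x ∈ G, x ≠ 0 ∧ ∀ p : ℕ, p.Prime → p ∉ P → padicValRat p x = 0) →
          (∀ z : ℤ, (z : ℚ) ∈ R) → ∀ a : ℕ,
            (a ∈ A ↔ ∃ (u : Fin m → ℚ) (y : Fin r → ℚ), (∀ i, u i ∈ G) ∧ (∀ j, y j ∈ R) ∧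
              MvPolynomial.aeval (Sum.elim (fun _ => (a : ℚ)) (Sum.elim u y)) F = 0)) ∧
    (∀ (t : ℕ → ℚ) (B : ℚ), (Hyper t ∨ t = fun n => (n.factorial : ℚ)) →
      ∀ (k : ℕ) (S : Set (Fin k → ℤ)), REPred (fun a => a ∈ S) →
        (∃ (m r : ℕ) (F : MvPolynomial (Fin k ⊕ Fin m ⊕ Fin r) ℤ), ∀ G ∈ Above t B, ∀ R : Set ℚ,
          (∀ z : ℤ, (z : ℚ) ∈ R) → Defines F S G R) ∧
        ∀ G ∈ Above t B, DioQ G → DioZ S) ∧
    Hyper (fun n => (n.centralBinom : ℚ)) ∧
    (DioQ (Set.range (fun n : ℕ => (n.factorial : ℚ))) ↔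
      DioQ (Set.range (fun z : ℤ => (z : ℚ)))) ∧
    (DioQ (Set.range (fun n : ℕ => (n.centralBinom : ℚ))) ↔
      DioQ (Set.range (fun z : ℤ => (z : ℚ)))) :=
  ⟨fun P e he =>
    ⟨fun k S hS => Vale.Agent.P027.T2.t2_form P e he k S hS,
      fun k S hS => Vale.Agent.P027.T2.t2_exp P e he k S hS,
      fun G hG1 hG2 hG k S hS => Vale.Agent.P027.T2.t2_cond P e he G hG1 hG2 hG k S hS⟩,
    Vale.Agent.P027.T2.t2_set, fun t B ht k S hS => clause5 t B ht k S hS, hyper_central,
    clause6.1, clause6.2⟩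

end Vale.Agent.Results.P027.PowersOfTwo
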